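/-!
# Row 62 (S0084): deterministic polynomial-time two-sided Ramanujan graphs — blueprint

Owner: helper7.  Definitions: `Defs.lean` (frozen).  All files are in namespace `Crest.Agent.R62`.

**State.**  Free half-edges `S` (`N = card S`), graph `G`, and for `s = 1, -1` a symmetric matrix `K` (`A`, `B`) with
`K 1_S = s 1_S`, `1 + K ≥ 0` (`Side`).  Joining `a, b` is a Schur complement (`step`).

**Correctness** (`InvStep`, `InvMob`, `InvInit`, `Round`, `Graph`): `Good` holds at the start, survives steps with
`h₀ > 0`, rounding (`K` increases), and the Möbius step; when `tr K² < 2` it gives the spectral bound for every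
completion (`Good0`).

**Progress.**  The potential `Phi` is a weighted sum of `(tr K - F̄)²`, `(tr K² - N ρ - 1)²`, `(tr K³ - T̄)²`,
`tr K⁶`, `VV`, `DD`, `WW`, `XX`, `CC`.  From `Phi ≤ 1` we get a priori bounds `Bnd` (`Derive`), weights `w ≈ 1`
on the pairs (`Excl`, `Tilt`, `Weights`), and the `w`-average of every term after the step is at most the term
before plus `C θ / N` (`Ident`, `Newton`: exact formulas; `Lin`, `Tools`, `Mom`: tools; `Drift*`: estimates;
`StepTerm`, `StepPot`: assembly).  Every error term is matched with one field of a structure `CondF … CondX`; the
fields are verified for explicit scales in `Num*`.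

**Phases.**  A: `N₀ → N₁`, in the window `2 N₁ → N₁` the tilted weights push `tr K` down on both sides; the Möbius
step (`Mob1–3`) converts this into `tr K² ≈ N - M`; B: `tr K² ≈ N²/(N+M)`; C: the same with `ρ = 0` until
`tr K² < 2` and no conflicts remain; D: join arbitrarily.

**How to work on a file.**  Fill every `sorry`; keep the statements; use the statements of the imported files freely
(they may still contain `sorry`).  Constants are generous; the docstrings list which field bounds which term.
A convenient pattern for an error term `|Ew w F| ≤ c * (N E)`: bound `|F a b|` on the support
(`Wt.abs_le_abs`, `Wt.mono`), then `Wt.cs_le` / `Wt.abs_le_prod` / `Wt.sep`, then `sqrt_mul_sqrt_le` or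
`Real.sqrt_le_iff`/`abs_le_of_sq_le` with the field of the condition structure.  Prefer many small lemmas,
`nlinarith` only on small goals.  If a statement is false or needs another hypothesis, message helper7 at once.
-/
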